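import Mathlib

/-!
# The set form of the minimality of a counterexample
-/

namespace Vale.Agent.P038.H500

open Classical

variable {V : Type*} [Fintype V]

/-- The out-neighbours of `v`. -/
noncomputable def out1 (D : V → V → Prop) (v : V) : Finset V :=
  Finset.univ.filter (fun z => D v z)

/-- The second out-neighbours of `v`. -/
noncomputable def out2 (D : V → V → Prop) (v : V) : Finset V :=
  Finset.univ.filter (fun z => z ≠ v ∧ ¬ D v z ∧ ∃ c, D v c ∧ D c z)

/-- The closed out-neighbourhood of a set. -/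
noncomputable def NN (D : V → V → Prop) (S : Finset V) : Finset V :=
  Finset.univ.filter (fun z => z ∈ S ∨ ∃ s ∈ S, D s z)

/-- The size of the outer boundary of a set. -/
noncomputable def cc (D : V → V → Prop) (S : Finset V) : ℕ := (NN D S \ S).card

theorem mem_NN {D : V → V → Prop} {S : Finset V} {z : V} :
    z ∈ NN D S ↔ z ∈ S ∨ ∃ s ∈ S, D s z := by simp [NN]

theorem mem_out1 {D : V → V → Prop} {v z : V} : z ∈ out1 D v ↔ D v z := by simp [out1]

theorem mem_out2 {D : V → V → Prop} {v z : V} :
    z ∈ out2 D v ↔ z ≠ v ∧ ¬ D v z ∧ ∃ c, D v c ∧ D c z := by simp [out2]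

theorem subset_NN (D : V → V → Prop) (S : Finset V) : S ⊆ NN D S := fun _ h => mem_NN.2 (Or.inl h)

/-- In an arc-minimal counterexample the boundary of `NN D X` is smaller than that of `X`. -/
theorem gain (D : V → V → Prop)
    (hF : ∀ v, (out2 D v).card < (out1 D v).card)
    (hmin : ∀ D' : V → V → Prop, (∀ u v, D' u v → D u v) → (∃ u v, D u v ∧ ¬ D' u v) →
      ∃ v, (out1 D' v).card ≤ (out2 D' v).card)
    (X : Finset V) (hX : NN D X ≠ X) : cc D (NN D X) < cc D X := by
  by_contra hcon
  push Not at hcon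
  unfold cc at hcon
  set L := NN D X \ X with hL
  let d : Finset V → ℤ := fun T => ((NN D T \ X).card : ℤ) - 2 * (T.card : ℤ)
  have hdL : 0 ≤ d L := by
    have h1 : L ∪ (NN D (NN D X) \ NN D X) ⊆ NN D L \ X := by
      intro z hz
      rw [Finset.mem_union] at hz
      rw [Finset.mem_sdiff]
      rcases hz with hz | hz
      · exact ⟨subset_NN D L hz, (Finset.mem_sdiff.1 hz).2⟩
      · rw [Finset.mem_sdiff, mem_NN] at hz
        obtain ⟨hz | ⟨s, hs, hsz⟩, hz2⟩ := hz
        · exact absurd hz hz2
        · refine ⟨mem_NN.2 (Or.inr ⟨s, ?_, hsz⟩), fun h => hz2 (subset_NN D X h)⟩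
          rw [hL, Finset.mem_sdiff]
          exact ⟨hs, fun h => hz2 (mem_NN.2 (Or.inr ⟨s, h, hsz⟩))⟩
    have h2 : Disjoint L (NN D (NN D X) \ NN D X) := by
      rw [Finset.disjoint_left]
      intro z hz hz'
      exact (Finset.mem_sdiff.1 hz').2 (Finset.mem_sdiff.1 hz).1
    have h3 := Finset.card_le_card h1
    rw [Finset.card_union_of_disjoint h2] at h3
    simp only [d]
    omega
  have hLne : L ≠ ∅ := by
    intro h
    apply hX
    apply Finset.Subset.antisymm _ (subset_NN D X)
    rw [hL, Finset.sdiff_eq_empty_iff_subset] at h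
    exact h
  obtain ⟨T, hTL, hTmin⟩ := Finset.exists_min_image L.ssubsets d
    ⟨∅, Finset.mem_ssubsets.2 (Finset.ssubset_iff_subset_ne.2
      ⟨Finset.empty_subset _, fun h => hLne h.symm⟩)⟩
  rw [Finset.mem_ssubsets] at hTL
  have hd0 : d ∅ = 0 := by
    have : NN D (∅ : Finset V) = ∅ := by
      ext z
      simp [mem_NN]
    simp [d, this]
  have hT : ∀ U ⊆ L, d T ≤ d U := by
    intro U hU
    by_cases h : U = L
    · rw [h]
      have := hTmin ∅ (Finset.mem_ssubsets.2 (Finset.ssubset_iff_subset_ne.2
        ⟨Finset.empty_subset _, fun h => hLne h.symm⟩))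
      linarith
    · exact hTmin U (Finset.mem_ssubsets.2 (Finset.ssubset_iff_subset_ne.2 ⟨hU, h⟩))
  let D' : V → V → Prop := fun y z => D y z ∧ (y ∈ X → z ∈ X ∪ T)
  obtain ⟨v, hv⟩ := hmin D' (fun u v h => h.1) (by
    obtain ⟨l, hl, hlT⟩ := Finset.exists_of_ssubset hTL
    rw [hL, Finset.mem_sdiff, mem_NN] at hl
    obtain ⟨hl | ⟨s, hs, hsl⟩, hl2⟩ := hl
    · exact absurd hl hl2
    · refine ⟨s, l, hsl, fun h => ?_⟩
      have := h.2 hs
      rw [Finset.mem_union] at this
      exact this.elim hl2 hlT)
  by_cases hvX : v ∈ X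
  · set Dv := out1 D v \ (X ∪ T) with hDv
    have hDvL : Dv ⊆ L := by
      intro z hz
      rw [hDv, Finset.mem_sdiff, mem_out1, Finset.mem_union, not_or] at hz
      rw [hL, Finset.mem_sdiff, mem_NN]
      exact ⟨Or.inr ⟨v, hvX, hz.1⟩, hz.2.1⟩
    set E := NN D Dv \ (NN D T ∪ X) with hE
    have hE2 : 2 * Dv.card ≤ E.card := by
      have h1 := hT (T ∪ Dv) (Finset.union_subset hTL.1 hDvL)
      have h2 : NN D (T ∪ Dv) \ X = (NN D T \ X) ∪ E := by
        ext z
        simp only [hE, Finset.mem_sdiff, Finset.mem_union, mem_NN]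
        constructor
        · rintro ⟨h, hzX⟩
          by_cases hzT : z ∈ T ∨ ∃ s ∈ T, D s z
          · exact Or.inl ⟨hzT, hzX⟩
          · refine Or.inr ⟨?_, fun h' => h'.elim hzT hzX⟩
            rcases h with (h | h) | ⟨s, h | h, hs⟩
            · exact absurd (Or.inl h) hzT
            · exact Or.inl h
            · exact absurd (Or.inr ⟨s, h, hs⟩) hzT
            · exact Or.inr ⟨s, h, hs⟩
        · rintro (⟨h, hzX⟩ | ⟨h, h'⟩)
          · refine ⟨?_, hzX⟩
            rcases h with h | ⟨s, h, hs⟩
            · exact Or.inl (Or.inl h)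
            · exact Or.inr ⟨s, Or.inl h, hs⟩
          · refine ⟨?_, fun hzX => h' (Or.inr hzX)⟩
            rcases h with h | ⟨s, h, hs⟩
            · exact Or.inl (Or.inr h)
            · exact Or.inr ⟨s, Or.inr h, hs⟩
      have h3 : Disjoint (NN D T \ X) E := by
        rw [Finset.disjoint_left]
        intro z hz hz'
        rw [hE, Finset.mem_sdiff, Finset.mem_union] at hz'
        exact hz'.2 (Or.inl (Finset.mem_sdiff.1 hz).1)
      have h4 : Disjoint T Dv := by
        rw [Finset.disjoint_left]
        intro z hz hz'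
        rw [hDv, Finset.mem_sdiff, Finset.mem_union] at hz'
        exact hz'.2 (Or.inr hz)
      simp only [d] at h1
      rw [h2, Finset.card_union_of_disjoint h3, Finset.card_union_of_disjoint h4] at h1
      push_cast at h1
      omega
    have hout : (out1 D' v).card + Dv.card = (out1 D v).card := by
      have h1 : out1 D v = out1 D' v ∪ Dv := by
        ext z
        simp only [hDv, Finset.mem_union, Finset.mem_sdiff, mem_out1, D']
        tauto
      have h2 : Disjoint (out1 D' v) Dv := by
        rw [Finset.disjoint_left]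
        intro z hz hz'
        rw [mem_out1] at hz
        rw [hDv, Finset.mem_sdiff] at hz'
        exact hz'.2 (hz.2 hvX)
      rw [h1, Finset.card_union_of_disjoint h2]
    have hsub1 : out2 D' v ⊆ (out2 D v ∪ Dv) \ E := by
      intro z hz
      rw [mem_out2] at hz
      obtain ⟨hzv, hnz, c, hc1, hc2⟩ := hz
      rw [Finset.mem_sdiff, Finset.mem_union]
      constructor
      · by_cases h : D v z
        · right
          rw [hDv, Finset.mem_sdiff, mem_out1]
          exact ⟨h, fun h' => hnz ⟨h, fun _ => h'⟩⟩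
        · left
          rw [mem_out2]
          exact ⟨hzv, h, c, hc1.1, hc2.1⟩
      · intro hzE
        rw [hE, Finset.mem_sdiff, Finset.mem_union, not_or] at hzE
        obtain ⟨_, hzT, hzX⟩ := hzE
        have hcXT := hc1.2 hvX
        rw [Finset.mem_union] at hcXT
        by_cases hcX : c ∈ X
        · have := hc2.2 hcX
          rw [Finset.mem_union] at this
          rcases this with h | h
          · exact hzX h
          · exact hzT (subset_NN D T h)
        · rcases hcXT with h | h
          · exact hcX h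
          · exact hzT (mem_NN.2 (Or.inr ⟨c, h, hc2.1⟩))
    have hsub2 : E ⊆ out2 D v ∪ Dv := by
      intro z hz
      rw [hE, Finset.mem_sdiff, Finset.mem_union, not_or, mem_NN] at hz
      obtain ⟨hz1, hzT, hzX⟩ := hz
      rw [Finset.mem_union]
      rcases hz1 with hz1 | ⟨s, hs, hsz⟩
      · exact Or.inr hz1
      · by_cases h : D v z
        · right
          rw [hDv, Finset.mem_sdiff, mem_out1, Finset.mem_union]
          exact ⟨h, fun h' => h'.elim hzX (fun h'' => hzT (subset_NN D T h''))⟩
        · left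
          rw [mem_out2]
          rw [hDv, Finset.mem_sdiff, mem_out1] at hs
          exact ⟨fun h' => hzX (h' ▸ hvX), h, s, hs.1, hsz⟩
    have h5 := Finset.card_le_card hsub1
    rw [Finset.card_sdiff_of_subset hsub2] at h5
    have h6 := Finset.card_le_card hsub2
    have h7 := Finset.card_union_le (out2 D v) Dv
    have h8 := hF v
    omega
  · have h1 : out1 D' v = out1 D v := by
      ext z
      simp only [mem_out1, D']
      exact ⟨fun h => h.1, fun h => ⟨h, fun h' => absurd h' hvX⟩⟩
    have h2 : out2 D' v ⊆ out2 D v := by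
      intro z hz
      rw [mem_out2] at hz ⊢
      obtain ⟨h3, h4, c, h5, h6⟩ := hz
      exact ⟨h3, fun h => h4 ⟨h, fun h' => absurd h' hvX⟩, c, h5.1, h6.1⟩
    have h3 := Finset.card_le_card h2
    have h4 := hF v
    rw [h1] at hv
    omega

end Vale.Agent.P038.H500
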