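import Vale.Agent.P038.H500.Star
import Vale.Agent.P038.H500.Gain

/-!
# Comparison of two minimum cuts, and the second neighbourhood theorem
-/

namespace Vale.Agent.P038.H500

open Classical

variable {V : Type*} [Fintype V]

/-- The closed in-neighbourhood. -/
noncomputable def inn (D : V → V → Prop) (x : V) : Finset V :=
  Finset.univ.filter (fun y => y = x ∨ D y x)

theorem mem_inn {D : V → V → Prop} {x y : V} : y ∈ inn D x ↔ y = x ∨ D y x := by simp [inn]

/-- The points whose closed in-neighbourhood lies in `S`. -/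
noncomputable def eps (D : V → V → Prop) (S : Finset V) : Finset V :=
  Finset.univ.filter (fun x => inn D x ⊆ S)

theorem mem_eps {D : V → V → Prop} {S : Finset V} {x : V} : x ∈ eps D S ↔ inn D x ⊆ S := by
  simp [eps]

theorem eps_subset (D : V → V → Prop) (S : Finset V) : eps D S ⊆ S :=
  fun _ hx => mem_eps.1 hx (mem_inn.2 (Or.inl rfl))

theorem eps_mono (D : V → V → Prop) {S T : Finset V} (h : S ⊆ T) : eps D S ⊆ eps D T :=
  fun _ hx => mem_eps.2 ((mem_eps.1 hx).trans h)

/-- The size of the inner boundary of `S`. -/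
noncomputable def tau (D : V → V → Prop) (S : Finset V) : ℤ := (S.card : ℤ) - ((eps D S).card : ℤ)

theorem tau_submod (D : V → V → Prop) : Submod (tau D) := by
  intro S T
  have h1 := Finset.card_union_add_card_inter S T
  have h2 := Finset.card_union_add_card_inter (eps D S) (eps D T)
  have h3 : eps D S ∪ eps D T ⊆ eps D (S ∪ T) :=
    Finset.union_subset (eps_mono D Finset.subset_union_left)
      (eps_mono D Finset.subset_union_right)
  have h4 : eps D S ∩ eps D T ⊆ eps D (S ∩ T) := by
    intro x hx
    rw [Finset.mem_inter, mem_eps, mem_eps] at hx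
    rw [mem_eps]
    exact Finset.subset_inter hx.1 hx.2
  have h5 := Finset.card_le_card h3
  have h6 := Finset.card_le_card h4
  unfold tau
  omega

theorem cc_eq_tau (D : V → V → Prop) (Q : Finset V) : (cc D Q : ℤ) = tau D Qᶜ := by
  have h1 : NN D Q \ Q = Qᶜ \ eps D Qᶜ := by
    ext x
    simp only [Finset.mem_sdiff, mem_NN, Finset.mem_compl, mem_eps]
    constructor
    · rintro ⟨h | ⟨s, hs, hsx⟩, hx⟩
      · exact absurd h hx
      · exact ⟨hx, fun h => (Finset.mem_compl.1 (h (mem_inn.2 (Or.inr hsx)))) hs⟩
    · rintro ⟨hx, h⟩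
      refine ⟨?_, hx⟩
      rw [Finset.not_subset] at h
      obtain ⟨s, hs, hs'⟩ := h
      rw [Finset.mem_compl, not_not] at hs'
      rw [mem_inn] at hs
      rcases hs with rfl | hs
      · exact Or.inl hs'
      · exact Or.inr ⟨s, hs', hs⟩
  have h2 := Finset.card_sdiff_add_card_eq_card (eps_subset D Qᶜ)
  unfold cc tau
  rw [h1]
  omega

/-- Compatible pairs of relations containing all arcs. -/
def Cand (D : V → V → Prop) (P Q : V → Finset V) : Prop :=
  (∀ a, a ∈ P a) ∧ (∀ a b, D a b → b ∈ P a) ∧ (∀ a, a ∈ Q a) ∧ (∀ a b, D a b → b ∈ Q a) ∧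
    ∀ a b, b ∈ P a → a ∈ Q b → a = b

/-- The total boundary. -/
noncomputable def EE (D : V → V → Prop) (P Q : V → Finset V) : ℕ :=
  ∑ a, cc D (P a) + ∑ b, cc D (Q b)

/-- The column of a relation. -/
noncomputable def col (P : V → Finset V) (y : V) : Finset V :=
  Finset.univ.filter (fun x => y ∈ P x)

theorem mem_col {P : V → Finset V} {x y : V} : x ∈ col P y ↔ y ∈ P x := by simp [col]

theorem sum_card_col (P : V → Finset V) :
    ∑ a, ((P a).card : ℤ) = ∑ y, ((col P y).card : ℤ) := by
  have h := Finset.sum_card_bipartiteAbove_eq_sum_card_bipartiteBelow (s := (Finset.univ : Finset V))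
    (t := (Finset.univ : Finset V)) (fun a b => b ∈ P a)
  have h1 : ∀ a, (Finset.bipartiteAbove (fun a b => b ∈ P a) Finset.univ a) = P a := by
    intro a
    ext x
    simp [Finset.bipartiteAbove]
  have h2 : ∀ b, (Finset.bipartiteBelow (fun a b => b ∈ P a) Finset.univ b) = col P b := by
    intro a
    ext x
    simp [Finset.bipartiteBelow, col]
  simp only [h1, h2] at h
  exact_mod_cast h

theorem sum_cc (D : V → V → Prop) (P : V → Finset V) :
    ∑ a, (cc D (P a) : ℤ) =
      ∑ z, (((inn D z).biUnion (col P)).card : ℤ) - ∑ y, ((col P y).card : ℤ) := by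
  have h1 : ∀ a, (cc D (P a) : ℤ) = ((NN D (P a)).card : ℤ) - ((P a).card : ℤ) := by
    intro a
    have := Finset.card_sdiff_add_card_eq_card (subset_NN D (P a))
    unfold cc
    omega
  have h2 : ∀ z, (inn D z).biUnion (col P) = col (fun a => NN D (P a)) z := by
    intro z
    ext a
    simp only [Finset.mem_biUnion, mem_inn, mem_col, mem_NN]
    constructor
    · rintro ⟨y, rfl | hy, h⟩
      · exact Or.inl h
      · exact Or.inr ⟨y, h, hy⟩
    · rintro (h | ⟨y, h, hy⟩)
      · exact ⟨z, Or.inl rfl, h⟩
      · exact ⟨y, Or.inr hy, h⟩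
  rw [Finset.sum_congr rfl (fun a _ => h1 a), Finset.sum_sub_distrib, sum_card_col P,
    sum_card_col (fun a => NN D (P a))]
  congr 1
  exact Finset.sum_congr rfl (fun z _ => by rw [h2 z])

/-- The intersection of the rows over a closed in-neighbourhood. -/
noncomputable def mi (D : V → V → Prop) (P : V → Finset V) (a : V) : Finset V :=
  Finset.univ.filter (fun y => ∀ x ∈ inn D a, y ∈ P x)

theorem mem_mi {D : V → V → Prop} {P : V → Finset V} {a y : V} :
    y ∈ mi D P a ↔ ∀ x ∈ inn D a, y ∈ P x := by simp [mi]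

theorem col_mi (D : V → V → Prop) (P : V → Finset V) (y : V) :
    col (mi D P) y = eps D (col P y) := by
  ext x
  rw [mem_col, mem_mi, mem_eps]
  exact ⟨fun h z hz => mem_col.2 (h z hz), fun h z hz => mem_col.1 (h hz)⟩

theorem compl_mi (D : V → V → Prop) (Q : V → Finset V) (z : V) :
    (mi D Q z)ᶜ = (inn D z).biUnion (fun y => (Q y)ᶜ) := by
  ext x
  simp only [Finset.mem_compl, mem_mi, Finset.mem_biUnion, not_forall]
  constructor
  · rintro ⟨y, hy, h⟩
    exact ⟨y, hy, h⟩
  · rintro ⟨y, hy, h⟩
    exact ⟨y, hy, h⟩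

/-- The comparison of the two cuts. -/
theorem cut (D : V → V → Prop) (hD : ∀ u v, D u v → ¬ D v u) (P Q : V → Finset V)
    (hc : Cand D P Q) (hopt : ∀ P' Q', Cand D P' Q' → EE D P Q ≤ EE D P' Q') :
    EE D (mi D P) (mi D Q) ≤ EE D P Q := by
  obtain ⟨hP1, hP2, hQ1, hQ2, hPQ⟩ := hc
  have hirr : ∀ x, ¬ D x x := fun x h => hD x x h h
  let Pc : V → Finset V := fun y => (col P y).erase y
  let Rc : V → Finset V := fun y => (Q y)ᶜ
  have mem_Pc : ∀ {x y}, x ∈ Pc y ↔ x ≠ y ∧ y ∈ P x := by
    intro x y
    simp only [Pc, Finset.mem_erase, mem_col]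
  have mem_Rc : ∀ {x y}, x ∈ Rc y ↔ x ∉ Q y := by
    intro x y
    simp only [Rc, Finset.mem_compl]
  have hPR : ∀ y, Pc y ⊆ Rc y := by
    intro y x hx
    rw [mem_Pc] at hx
    rw [mem_Rc]
    exact fun h => hx.1 (hPQ x y hx.2 h)
  -- column optimality
  have hcol : ∀ y Z, Pc y ⊆ Z → Z ⊆ Rc y → tau D (Rc y) ≤ tau D Z := by
    intro y Z h1 h2
    have hcand : Cand D P (Function.update Q y Zᶜ) := by
      refine ⟨hP1, hP2, ?_, ?_, ?_⟩
      · intro a
        by_cases ha : a = y
        · subst ha
          rw [Function.update_self, Finset.mem_compl]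
          exact fun h => (mem_Rc.1 (h2 h)) (hQ1 a)
        · rw [Function.update_of_ne ha]
          exact hQ1 a
      · intro a b hab
        by_cases ha : a = y
        · subst ha
          rw [Function.update_self, Finset.mem_compl]
          exact fun h => (mem_Rc.1 (h2 h)) (hQ2 a b hab)
        · rw [Function.update_of_ne ha]
          exact hQ2 a b hab
      · intro a b hb ha
        by_cases hby : b = y
        · subst hby
          rw [Function.update_self, Finset.mem_compl] at ha
          by_contra hne
          exact ha (h1 (mem_Pc.2 ⟨hne, hb⟩))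
        · rw [Function.update_of_ne hby] at ha
          exact hPQ a b hb ha
    have h3 := hopt _ _ hcand
    unfold EE at h3
    have h4 : ∑ b, cc D (Q b) ≤ ∑ b, cc D (Function.update Q y Zᶜ b) := by omega
    rw [← Finset.add_sum_erase Finset.univ _ (Finset.mem_univ y),
      ← Finset.add_sum_erase Finset.univ (fun b => cc D (Function.update Q y Zᶜ b))
        (Finset.mem_univ y), Function.update_self] at h4
    have h5 : ∑ x ∈ Finset.univ.erase y, cc D (Function.update Q y Zᶜ x) =
        ∑ x ∈ Finset.univ.erase y, cc D (Q x) := by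
      apply Finset.sum_congr rfl
      intro x hx
      rw [Function.update_of_ne (Finset.ne_of_mem_erase hx)]
    rw [h5] at h4
    have h6 : cc D (Q y) ≤ cc D Zᶜ := by omega
    have h7 := cc_eq_tau D (Q y)
    have h8 := cc_eq_tau D Zᶜ
    rw [compl_compl] at h8
    change tau D (Q y)ᶜ ≤ tau D Z
    rw [← h7, ← h8]
    exact_mod_cast h6
  -- row optimality and Hall's theorem
  have hhall : ∀ x, ∃ f : {y // x ∈ Rc y ∧ x ∉ Pc y} → V, Function.Injective f ∧
      ∀ y, f y ∈ (Finset.univ.filter (fun z => z = y.1 ∨ D y.1 z)) \ NN D (P x) := by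
    intro x
    rw [← Finset.all_card_le_biUnion_card_iff_exists_injective]
    intro s
    let Z : Finset V := s.image Subtype.val
    have hZcard : Z.card = s.card := Finset.card_image_of_injective _ Subtype.val_injective
    have hZ : ∀ y ∈ Z, x ∉ Q y ∧ y ∉ P x := by
      intro y hy
      simp only [Z, Finset.mem_image] at hy
      obtain ⟨⟨y', h1, h2⟩, _, rfl⟩ := hy
      rw [mem_Rc] at h1
      rw [mem_Pc] at h2
      refine ⟨h1, fun h => h2 ⟨?_, h⟩⟩
      rintro rfl
      exact h1 (hQ1 x)
    have hcand : Cand D (Function.update P x (P x ∪ Z)) Q := by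
      refine ⟨?_, ?_, hQ1, hQ2, ?_⟩
      · intro a
        by_cases ha : a = x
        · subst ha
          rw [Function.update_self, Finset.mem_union]
          exact Or.inl (hP1 a)
        · rw [Function.update_of_ne ha]
          exact hP1 a
      · intro a b hab
        by_cases ha : a = x
        · subst ha
          rw [Function.update_self, Finset.mem_union]
          exact Or.inl (hP2 a b hab)
        · rw [Function.update_of_ne ha]
          exact hP2 a b hab
      · intro a b hb ha
        by_cases hax : a = x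
        · subst hax
          rw [Function.update_self, Finset.mem_union] at hb
          rcases hb with hb | hb
          · exact hPQ a b hb ha
          · exact absurd ha (hZ b hb).1
        · rw [Function.update_of_ne hax] at hb
          exact hPQ a b hb ha
    have h3 := hopt _ _ hcand
    unfold EE at h3
    have h4 : ∑ b, cc D (P b) ≤ ∑ b, cc D (Function.update P x (P x ∪ Z) b) := by omega
    rw [← Finset.add_sum_erase Finset.univ _ (Finset.mem_univ x),
      ← Finset.add_sum_erase Finset.univ (fun b => cc D (Function.update P x (P x ∪ Z) b))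
        (Finset.mem_univ x), Function.update_self] at h4
    have h5 : ∑ y ∈ Finset.univ.erase x, cc D (Function.update P x (P x ∪ Z) y) =
        ∑ y ∈ Finset.univ.erase x, cc D (P y) := by
      apply Finset.sum_congr rfl
      intro y hy
      rw [Function.update_of_ne (Finset.ne_of_mem_erase hy)]
    rw [h5] at h4
    have h6 : cc D (P x) ≤ cc D (P x ∪ Z) := by omega
    have h7 := Finset.card_sdiff_add_card_eq_card (subset_NN D (P x))
    have h8 := Finset.card_sdiff_add_card_eq_card (subset_NN D (P x ∪ Z))
    have h9 : Disjoint (P x) Z := by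
      rw [Finset.disjoint_left]
      intro y hy hy'
      exact (hZ y hy').2 hy
    have h10 := Finset.card_union_of_disjoint h9
    have h11 : NN D (P x) ⊆ NN D (P x ∪ Z) := by
      intro z hz
      rw [mem_NN] at hz ⊢
      rcases hz with hz | ⟨s, hs, h⟩
      · exact Or.inl (Finset.mem_union_left _ hz)
      · exact Or.inr ⟨s, Finset.mem_union_left _ hs, h⟩
    have h12 := Finset.card_sdiff_add_card_eq_card h11
    have h13 : NN D (P x ∪ Z) \ NN D (P x) ⊆ s.biUnion
        (fun y => (Finset.univ.filter (fun z => z = y.1 ∨ D y.1 z)) \ NN D (P x)) := by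
      intro z hz
      rw [Finset.mem_sdiff] at hz
      obtain ⟨hz1, hz2⟩ := hz
      have hz3 : ∃ y ∈ Z, z = y ∨ D y z := by
        rw [mem_NN] at hz1
        rcases hz1 with h | ⟨y, h, hyz⟩
        · rcases Finset.mem_union.1 h with h | h
          · exact absurd (subset_NN D (P x) h) hz2
          · exact ⟨z, h, Or.inl rfl⟩
        · rcases Finset.mem_union.1 h with h | h
          · exact absurd (mem_NN.2 (Or.inr ⟨y, h, hyz⟩)) hz2
          · exact ⟨y, h, Or.inr hyz⟩
      obtain ⟨y, hy, hyz⟩ := hz3
      simp only [Z, Finset.mem_image] at hy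
      obtain ⟨y', hy', rfl⟩ := hy
      rw [Finset.mem_biUnion]
      refine ⟨y', hy', ?_⟩
      rw [Finset.mem_sdiff, Finset.mem_filter]
      exact ⟨⟨Finset.mem_univ _, hyz⟩, hz2⟩
    have h14 := Finset.card_le_card h13
    unfold cc at h6
    omega
  choose f hf1 hf2 using hhall
  let β : V → V → V := fun x y => if h : x ∈ Rc y ∧ x ∉ Pc y then f x ⟨y, h⟩ else y
  have hβ : ∀ x y (h : x ∈ Rc y ∧ x ∉ Pc y), β x y = f x ⟨y, h⟩ := by
    intro x y h
    simp only [β]
    rw [dif_pos h]
  have hstar := star (tau_submod D) (inn D) Pc Rc hPR hcol β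
    (by
      intro x y h1 h2
      have h3 := hf2 x ⟨y, h1, h2⟩
      rw [Finset.mem_sdiff, Finset.mem_filter] at h3
      rw [hβ x y ⟨h1, h2⟩, mem_inn]
      rcases h3.1.2 with h | h
      · exact Or.inl h.symm
      · exact Or.inr h)
    (by
      intro x y h1 h2 y' hy' h4
      have h3 := hf2 x ⟨y, h1, h2⟩
      rw [Finset.mem_sdiff, Finset.mem_filter] at h3
      rw [hβ x y ⟨h1, h2⟩, mem_inn] at hy'
      rw [mem_Pc] at h4
      apply h3.2
      rw [mem_NN]
      rcases hy' with h | h
      · rw [← h]
        exact Or.inl h4.2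
      · exact Or.inr ⟨y', h4.2, h⟩)
    (by
      intro x y y' h1 h2 h3 h4 h
      rw [hβ x y ⟨h1, h2⟩, hβ x y' ⟨h3, h4⟩] at h
      have := hf1 x h
      exact congrArg Subtype.val this)
  -- the diagonal
  have hi : ∀ y, ((col P y).card : ℤ) - ((eps D (col P y)).card : ℤ) ≤ tau D (Pc y) := by
    intro y
    have h1 : y ∈ col P y := mem_col.2 (hP1 y)
    have h2 := Finset.card_erase_add_one h1
    have h3 : y ∉ eps D (Pc y) := by
      intro h
      have := eps_subset D _ h
      rw [mem_Pc] at this
      exact this.1 rfl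
    have h4 : insert y (eps D (Pc y)) ⊆ eps D (col P y) := by
      intro x hx
      rw [Finset.mem_insert] at hx
      rcases hx with rfl | hx
      · rw [mem_eps]
        intro z hz
        rw [mem_inn] at hz
        rw [mem_col]
        rcases hz with rfl | hz
        · exact hP1 _
        · exact hP2 _ _ hz
      · exact eps_mono D (Finset.erase_subset _ _) hx
    have h5 := Finset.card_le_card h4
    rw [Finset.card_insert_of_notMem h3] at h5
    unfold tau
    change _ ≤ ((((col P y).erase y).card : ℤ) - _)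
    omega
  have hii : ∀ z, tau D ((inn D z).biUnion Pc) ≤
      (((inn D z).biUnion (col P)).card : ℤ) -
        (((inn D z).biUnion (fun y => eps D (col P y))).card : ℤ) := by
    intro z
    have h1 : z ∉ (inn D z).biUnion Pc := by
      rw [Finset.mem_biUnion]
      rintro ⟨y, hy, h⟩
      rw [mem_inn] at hy
      rw [mem_Pc] at h
      rcases hy with rfl | hy
      · exact h.1 rfl
      · exact h.1 (hPQ z y h.2 (hQ2 y z hy))
    have h2 : insert z ((inn D z).biUnion Pc) ⊆ (inn D z).biUnion (col P) := by
      intro x hx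
      rw [Finset.mem_insert, Finset.mem_biUnion] at hx
      rw [Finset.mem_biUnion]
      rcases hx with rfl | ⟨y, hy, hx⟩
      · exact ⟨x, mem_inn.2 (Or.inl rfl), mem_col.2 (hP1 x)⟩
      · exact ⟨y, hy, mem_col.2 (mem_Pc.1 hx).2⟩
    have h3 := Finset.card_le_card h2
    rw [Finset.card_insert_of_notMem h1] at h3
    have h4 : (inn D z).biUnion (fun y => eps D (col P y)) ⊆
        insert z (eps D ((inn D z).biUnion Pc)) := by
      intro x hx
      rw [Finset.mem_biUnion] at hx
      obtain ⟨y, hy, hx⟩ := hx
      rw [Finset.mem_insert]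
      by_cases hxz : x = z
      · exact Or.inl hxz
      · right
        rw [mem_eps]
        intro x' hx'
        rw [Finset.mem_biUnion]
        have hx'P := mem_eps.1 hx hx'
        rw [mem_col] at hx'P
        by_cases hxy : x' = y
        · -- then `x = y`
          have hxP : y ∈ P x := mem_col.1 (eps_subset D _ hx)
          have hxy' : x = y := by
            rw [mem_inn, hxy] at hx'
            rcases hx' with h | h
            · exact h.symm
            · exact hPQ x y hxP (hQ2 y x h)
          have hyz : D y z := by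
            rw [mem_inn] at hy
            rcases hy with h | h
            · exact absurd (hxy'.trans h) hxz
            · exact h
          refine ⟨z, mem_inn.2 (Or.inl rfl), mem_Pc.2 ⟨?_, ?_⟩⟩
          · rw [hxy, ← hxy']
            exact hxz
          · rw [hxy]
            exact hP2 y z hyz
        · exact ⟨y, hy, mem_Pc.2 ⟨hxy, hx'P⟩⟩
    have h5 := (Finset.card_le_card h4).trans (Finset.card_insert_le _ _)
    unfold tau
    omega
  -- conclusion
  have e1 := sum_cc D P
  have e2 := sum_cc D (mi D P)
  have e3 : ∑ b, (cc D (Q b) : ℤ) = ∑ b, tau D (Rc b) :=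
    Finset.sum_congr rfl (fun b _ => cc_eq_tau D (Q b))
  have e4 : ∑ b, (cc D (mi D Q b) : ℤ) = ∑ z, tau D ((inn D z).biUnion Rc) := by
    apply Finset.sum_congr rfl
    intro z _
    rw [cc_eq_tau, compl_mi]
  have e5 : ∑ z, (((inn D z).biUnion (col (mi D P))).card : ℤ) =
      ∑ z, (((inn D z).biUnion (fun y => eps D (col P y))).card : ℤ) := by
    apply Finset.sum_congr rfl
    intro z _
    have : col (mi D P) = fun y => eps D (col P y) := funext (col_mi D P)
    rw [this]
  have e6 : ∑ y, ((col (mi D P) y).card : ℤ) = ∑ y, ((eps D (col P y)).card : ℤ) :=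
    Finset.sum_congr rfl (fun y _ => by rw [col_mi])
  have s1 := Finset.sum_le_sum (fun y (_ : y ∈ Finset.univ) => hi y)
  have s2 := Finset.sum_le_sum (fun z (_ : z ∈ Finset.univ) => hii z)
  rw [Finset.sum_sub_distrib] at s1 s2
  rw [Finset.sum_sub_distrib, Finset.sum_sub_distrib] at hstar
  rw [e5, e6] at e2
  have : ((EE D (mi D P) (mi D Q) : ℕ) : ℤ) ≤ ((EE D P Q : ℕ) : ℤ) := by
    unfold EE
    push_cast
    rw [e1, e2, e3, e4]
    linarith
  exact_mod_cast this

/-- The second step is again compatible. -/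
theorem cand_NN_mi (D : V → V → Prop) (hD : ∀ u v, D u v → ¬ D v u) (P Q : V → Finset V)
    (hc : Cand D P Q) : Cand D (fun a => NN D (mi D P a)) (fun a => NN D (mi D Q a)) := by
  obtain ⟨hP1, hP2, hQ1, hQ2, hPQ⟩ := hc
  have hirr : ∀ x, ¬ D x x := fun x h => hD x x h h
  have hP : ∀ a, a ∈ mi D P a := by
    intro a
    rw [mem_mi]
    intro x hx
    rw [mem_inn] at hx
    rcases hx with rfl | hx
    · exact hP1 _
    · exact hP2 _ _ hx
  have hQ : ∀ a, a ∈ mi D Q a := by
    intro a
    rw [mem_mi]
    intro x hx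
    rw [mem_inn] at hx
    rcases hx with rfl | hx
    · exact hQ1 _
    · exact hQ2 _ _ hx
  refine ⟨fun a => subset_NN D _ (hP a), fun a b h => mem_NN.2 (Or.inr ⟨a, hP a, h⟩),
    fun a => subset_NN D _ (hQ a), fun a b h => mem_NN.2 (Or.inr ⟨a, hQ a, h⟩), ?_⟩
  intro a b hb ha
  have hb' : ∃ b' ∈ inn D b, b' ∈ mi D P a := by
    rw [mem_NN] at hb
    rcases hb with h | ⟨b', h, h'⟩
    · exact ⟨b, mem_inn.2 (Or.inl rfl), h⟩
    · exact ⟨b', mem_inn.2 (Or.inr h'), h⟩
  have ha' : ∃ a' ∈ inn D a, a' ∈ mi D Q b := by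
    rw [mem_NN] at ha
    rcases ha with h | ⟨a', h, h'⟩
    · exact ⟨a, mem_inn.2 (Or.inl rfl), h⟩
    · exact ⟨a', mem_inn.2 (Or.inr h'), h⟩
  obtain ⟨b', hb1, hb2⟩ := hb'
  obtain ⟨a', ha1, ha2⟩ := ha'
  have e : a' = b' := hPQ a' b' (mem_mi.1 hb2 a' ha1) (mem_mi.1 ha2 b' hb1)
  subst e
  have hza : a' = a := by
    rcases mem_inn.1 ha1 with h | h
    · exact h
    · exact (hPQ a a' (mem_mi.1 hb2 a (mem_inn.2 (Or.inl rfl))) (hQ2 a' a h)).symm
  have hzb : a' = b := by
    rcases mem_inn.1 hb1 with h | h
    · exact h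
    · exact hPQ a' b (hP2 a' b h) (mem_mi.1 ha2 b (mem_inn.2 (Or.inl rfl)))
  rw [← hza, hzb]

/-- **Seymour's second neighbourhood conjecture.** -/
theorem snc [Nonempty V] (D : V → V → Prop) (hD : ∀ u v, D u v → ¬ D v u) :
    ∃ v, (out1 D v).card ≤ (out2 D v).card := by
  induction' hn : (Finset.univ.filter (fun p : V × V => D p.1 p.2)).card using
    Nat.strong_induction_on with n ih generalizing D
  by_contra hcon
  push Not at hcon
  have hmin : ∀ D' : V → V → Prop, (∀ u v, D' u v → D u v) → (∃ u v, D u v ∧ ¬ D' u v) →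
      ∃ v, (out1 D' v).card ≤ (out2 D' v).card := by
    intro D' h1 h2
    apply ih _ _ D' (fun u v h h' => hD u v (h1 u v h) (h1 v u h')) rfl
    rw [← hn]
    apply Finset.card_lt_card
    rw [Finset.ssubset_iff_of_subset]
    · obtain ⟨u, v, h3, h4⟩ := h2
      exact ⟨(u, v), by simpa using h3, by simpa using h4⟩
    · intro p hp
      simp only [Finset.mem_filter, Finset.mem_univ, true_and] at hp ⊢
      exact h1 _ _ hp
  have hgain := gain D hcon hmin
  have hirr : ∀ x, ¬ D x x := fun x h => hD x x h h
  -- an optimal pair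
  obtain ⟨⟨P, Q⟩, hPQ, hopt⟩ := Finset.exists_min_image
    (Finset.univ.filter (fun p : (V → Finset V) × (V → Finset V) => Cand D p.1 p.2))
    (fun p => EE D p.1 p.2)
    ⟨(fun a => Finset.univ.filter (fun b => b = a ∨ D a b),
      fun a => Finset.univ.filter (fun b => b = a ∨ D a b)), by
      rw [Finset.mem_filter]
      refine ⟨Finset.mem_univ _, ?_, ?_, ?_, ?_, ?_⟩
      · intro a
        simp
      · intro a b h
        simp [h]
      · intro a
        simp
      · intro a b h
        simp [h]
      · intro a b h1 h2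
        simp only [Finset.mem_filter, Finset.mem_univ, true_and] at h1 h2
        rcases h1 with h1 | h1
        · exact h1.symm
        · rcases h2 with h2 | h2
          · exact h2
          · exact absurd h2 (hD _ _ h1)⟩
  simp only [Finset.mem_filter, Finset.mem_univ, true_and] at hPQ hopt
  have hopt' : ∀ P' Q', Cand D P' Q' → EE D P Q ≤ EE D P' Q' := fun P' Q' h => hopt (P', Q') h
  have hcut := cut D hD P Q hPQ hopt'
  have h2 := hopt' _ _ (cand_NN_mi D hD P Q hPQ)
  obtain ⟨hP1, hP2, hQ1, hQ2, hPQ'⟩ := hPQ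
  have hle : ∀ X : Finset V, cc D (NN D X) ≤ cc D X := by
    intro X
    by_cases hX : NN D X = X
    · rw [hX]
    · exact (hgain X hX).le
  -- some row is not closed
  have hex : ∃ a, NN D (mi D P a) ≠ mi D P a := by
    by_contra hall
    push Not at hall
    obtain ⟨a, -, ha⟩ := Finset.exists_min_image (Finset.univ : Finset V)
      (fun a => (Finset.univ.filter (fun b => Relation.ReflTransGen D a b)).card)
      Finset.univ_nonempty
    have hpos : 0 < (out1 D a).card := lt_of_le_of_lt (Nat.zero_le _) (hcon a)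
    obtain ⟨b, hb⟩ := Finset.card_pos.1 hpos
    rw [mem_out1] at hb
    have hsub : (Finset.univ.filter (fun c => Relation.ReflTransGen D b c)) ⊆
        (Finset.univ.filter (fun c => Relation.ReflTransGen D a c)) := by
      intro c hc
      simp only [Finset.mem_filter, Finset.mem_univ, true_and] at hc ⊢
      exact Relation.ReflTransGen.head hb hc
    have heq := Finset.eq_of_subset_of_card_le hsub (ha b (Finset.mem_univ b))
    have hba : Relation.ReflTransGen D b a := by
      have : a ∈ (Finset.univ.filter (fun c => Relation.ReflTransGen D a c)) := by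
        simp only [Finset.mem_filter, Finset.mem_univ, true_and]
        exact Relation.ReflTransGen.refl
      rw [← heq] at this
      simpa using this
    have hcl : ∀ c, Relation.ReflTransGen D a c → c ∈ mi D P a := by
      intro c hc
      induction hc with
      | refl =>
        rw [mem_mi]
        intro x hx
        rw [mem_inn] at hx
        rcases hx with rfl | hx
        · exact hP1 _
        · exact hP2 _ _ hx
      | tail _ h ih' =>
        rw [← hall a, mem_NN]
        exact Or.inr ⟨_, ih', h⟩
    rcases Relation.ReflTransGen.cases_tail hba with h | ⟨c, hc1, hc2⟩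
    · rw [h] at hb
      exact hirr _ hb
    · have h3 := hcl c (Relation.ReflTransGen.head hb hc1)
      have h4 : c ∈ P a := mem_mi.1 h3 a (mem_inn.2 (Or.inl rfl))
      have h5 := hPQ' a c h4 (hQ2 c a hc2)
      rw [h5] at hc2
      exact hirr _ hc2
  have hlt : EE D (fun a => NN D (mi D P a)) (fun a => NN D (mi D Q a)) <
      EE D (mi D P) (mi D Q) := by
    unfold EE
    apply add_lt_add_of_lt_of_le
    · obtain ⟨a, ha⟩ := hex
      exact Finset.sum_lt_sum (fun x _ => hle _) ⟨a, Finset.mem_univ a, hgain _ ha⟩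
    · exact Finset.sum_le_sum (fun x _ => hle _)
  omega

end Vale.Agent.P038.H500
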