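import Mathlib

/-!
# A double counting lemma for two systems of submodular cuts
-/

namespace Vale.Agent.P038.H500

variable {V : Type*} [DecidableEq V]

/-- `τ` is submodular. -/
def Submod (τ : Finset V → ℤ) : Prop :=
  ∀ S T, τ (S ∩ T) + τ (S ∪ T) ≤ τ S + τ T

/-- The minimum of `τ` between `lo` and `lo ∪ U`. -/
noncomputable def tt (τ : Finset V → ℤ) (lo U : Finset V) : ℤ :=
  U.powerset.inf' ⟨∅, by simp⟩ (fun S => τ (lo ∪ S))

theorem tt_le (τ : Finset V → ℤ) (lo U S : Finset V) (h : S ⊆ U) : tt τ lo U ≤ τ (lo ∪ S) :=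
  Finset.inf'_le (fun S => τ (lo ∪ S)) (Finset.mem_powerset.2 h)

theorem tt_exists (τ : Finset V → ℤ) (lo U : Finset V) : ∃ S ⊆ U, tt τ lo U = τ (lo ∪ S) := by
  obtain ⟨S, hS, h⟩ := Finset.exists_mem_eq_inf' (s := U.powerset) ⟨∅, by simp⟩
    (fun S => τ (lo ∪ S))
  exact ⟨S, Finset.mem_powerset.1 hS, h⟩

theorem tt_anti (τ : Finset V → ℤ) (lo : Finset V) {U U' : Finset V} (h : U ⊆ U') :
    tt τ lo U' ≤ tt τ lo U := by
  obtain ⟨S, hS, e⟩ := tt_exists τ lo U
  rw [e]
  exact tt_le τ lo U' S (hS.trans h)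

theorem tt_self (τ : Finset V → ℤ) (lo : Finset V) : tt τ lo lo = τ lo := by
  obtain ⟨S, hS, e⟩ := tt_exists τ lo lo
  rw [e, Finset.union_eq_left.2 hS]

theorem tt_submod {τ : Finset V → ℤ} (hτ : Submod τ) {ly lz Z U : Finset V} (h1 : ly ⊆ lz)
    (h2 : lz ⊆ Z) : tt τ lz (Z ∪ U) + tt τ ly (Z ∩ U) ≤ tt τ lz Z + tt τ ly U := by
  obtain ⟨S, hS, e⟩ := tt_exists τ lz Z
  obtain ⟨S', hS', e'⟩ := tt_exists τ ly U
  have k1 : tt τ lz (Z ∪ U) ≤ τ (lz ∪ (S ∪ S')) :=
    tt_le τ lz _ _ (Finset.union_subset_union hS hS')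
  have k2 : tt τ ly (Z ∩ U) ≤ τ (ly ∪ ((lz ∪ S) ∩ S')) :=
    tt_le τ ly _ _ (Finset.inter_subset_inter (Finset.union_subset h2 hS) hS')
  have k3 := hτ (lz ∪ S) (ly ∪ S')
  have k4 : (lz ∪ S) ∪ (ly ∪ S') = lz ∪ (S ∪ S') := by
    ext x
    simp only [Finset.mem_union]
    constructor
    · rintro ((h | h) | (h | h))
      · exact Or.inl h
      · exact Or.inr (Or.inl h)
      · exact Or.inl (h1 h)
      · exact Or.inr (Or.inr h)
    · rintro (h | h | h)
      · exact Or.inl (Or.inl h)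
      · exact Or.inl (Or.inr h)
      · exact Or.inr (Or.inr h)
  have k5 : (lz ∪ S) ∩ (ly ∪ S') = ly ∪ ((lz ∪ S) ∩ S') := by
    ext x
    simp only [Finset.mem_union, Finset.mem_inter]
    constructor
    · rintro ⟨h, h' | h'⟩
      · exact Or.inl h'
      · exact Or.inr ⟨h, h'⟩
    · rintro (h | ⟨h, h'⟩)
      · exact ⟨Or.inl (h1 h), Or.inl h⟩
      · exact ⟨h, Or.inr h'⟩
  rw [k4, k5] at k3
  rw [e, e']
  linarith

/-- Telescoping along an injective rank function. -/
theorem telescope {ord : V → ℕ} (hord : Function.Injective ord) (g : Finset V → ℤ)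
    (lo : Finset V) (B : Finset V) :
    ∑ b ∈ B, (g (lo ∪ B.filter (fun x => ord x < ord b)) -
      g (lo ∪ B.filter (fun x => ord x ≤ ord b))) = g lo - g (lo ∪ B) := by
  induction B using Finset.induction_on_max_value ord with
  | empty => simp
  | insert a s has ha' ih =>
    have ha : ∀ x ∈ s, ord x < ord a := fun x hx =>
      lt_of_le_of_ne (ha' x hx) (fun h => has (hord h ▸ hx))
    rw [Finset.sum_insert has]
    have e1 : (insert a s).filter (fun x => ord x < ord a) = s := by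
      ext x
      simp only [Finset.mem_filter, Finset.mem_insert]
      constructor
      · rintro ⟨h | h, h'⟩
        · exact absurd h' (by rw [h]; exact lt_irrefl _)
        · exact h
      · intro h
        exact ⟨Or.inr h, ha x h⟩
    have e2 : (insert a s).filter (fun x => ord x ≤ ord a) = insert a s := by
      ext x
      simp only [Finset.mem_filter, Finset.mem_insert]
      constructor
      · rintro ⟨h, h'⟩
        exact h
      · rintro (h | h)
        · exact ⟨Or.inl h, by rw [h]⟩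
        · exact ⟨Or.inr h, (ha x h).le⟩
    have e3 : ∀ b ∈ s, (insert a s).filter (fun x => ord x < ord b) =
        s.filter (fun x => ord x < ord b) := by
      intro b hb
      ext x
      simp only [Finset.mem_filter, Finset.mem_insert]
      constructor
      · rintro ⟨h | h, h'⟩
        · exact absurd (h ▸ h') (not_lt.2 (ha b hb).le)
        · exact ⟨h, h'⟩
      · rintro ⟨h, h'⟩
        exact ⟨Or.inr h, h'⟩
    have e4 : ∀ b ∈ s, (insert a s).filter (fun x => ord x ≤ ord b) =
        s.filter (fun x => ord x ≤ ord b) := by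
      intro b hb
      ext x
      simp only [Finset.mem_filter, Finset.mem_insert]
      constructor
      · rintro ⟨h | h, h'⟩
        · exact absurd (h ▸ h') (not_le.2 (ha b hb))
        · exact ⟨h, h'⟩
      · rintro ⟨h, h'⟩
        exact ⟨Or.inr h, h'⟩
    rw [e1, e2, Finset.sum_congr rfl (fun b hb => by rw [e3 b hb, e4 b hb]), ih]
    ring

/-- The marginal of `x` in column `y`. -/
noncomputable def mm (τ : Finset V → ℤ) (ord : V → ℕ) (P R : V → Finset V) (y x : V) : ℤ :=
  tt τ (P y) (P y ∪ (R y \ P y).filter (fun x' => ord x' < ord x)) -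
    tt τ (P y) (P y ∪ (R y \ P y).filter (fun x' => ord x' ≤ ord x))

theorem mm_nonneg (τ : Finset V → ℤ) (ord : V → ℕ) (P R : V → Finset V) (y x : V) :
    0 ≤ mm τ ord P R y x := by
  unfold mm
  have : tt τ (P y) (P y ∪ (R y \ P y).filter (fun x' => ord x' ≤ ord x)) ≤
      tt τ (P y) (P y ∪ (R y \ P y).filter (fun x' => ord x' < ord x)) := by
    apply tt_anti
    apply Finset.union_subset_union_right
    intro z hz
    rw [Finset.mem_filter] at hz ⊢
    exact ⟨hz.1, hz.2.le⟩
  linarith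

theorem sum_mm {τ : Finset V → ℤ} {ord : V → ℕ} (hord : Function.Injective ord)
    {P R : V → Finset V} (hPR : ∀ y, P y ⊆ R y)
    (hcol : ∀ y Z, P y ⊆ Z → Z ⊆ R y → τ (R y) ≤ τ Z) (y : V) :
    ∑ x ∈ R y \ P y, mm τ ord P R y x = τ (P y) - τ (R y) := by
  unfold mm
  rw [telescope hord (tt τ (P y)) (P y) (R y \ P y), tt_self,
    Finset.union_sdiff_of_subset (hPR y)]
  congr 1
  apply le_antisymm
  · have := tt_le τ (P y) (R y) (R y) (Finset.Subset.refl _)
    rwa [Finset.union_eq_right.2 (hPR y)] at this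
  · obtain ⟨S, hS, e⟩ := tt_exists τ (P y) (R y)
    rw [e]
    exact hcol y _ Finset.subset_union_left (Finset.union_subset (hPR y) hS)

theorem le_add_columns {τ : Finset V → ℤ} (hτ : Submod τ) {P R : V → Finset V}
    (hPR : ∀ y, P y ⊆ R y) (hcol : ∀ y Z, P y ⊆ Z → Z ⊆ R y → τ (R y) ≤ τ Z)
    (I : Finset V) (Z : Finset V) (hZ : ∀ y ∈ I, P y ⊆ Z) :
    τ (Z ∪ I.biUnion R) ≤ τ Z := by
  induction I using Finset.induction_on with
  | empty => simp
  | insert a s ha ih =>
    have ih' := ih (fun y hy => hZ y (Finset.mem_insert_of_mem hy))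
    have h1 := hτ (Z ∪ s.biUnion R) (R a)
    have h2 : τ (R a) ≤ τ ((Z ∪ s.biUnion R) ∩ R a) := by
      apply hcol a
      · exact Finset.subset_inter ((hZ a (Finset.mem_insert_self a s)).trans
          Finset.subset_union_left) (hPR a)
      · exact Finset.inter_subset_right
    have h3 : Z ∪ (insert a s).biUnion R = (Z ∪ s.biUnion R) ∪ R a := by
      rw [Finset.biUnion_insert, Finset.union_comm (R a), Finset.union_assoc]
    rw [h3]
    linarith

/-- One target column: the decrease of `τ` is at least the sum of the marginals of any system of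
parents. -/
theorem column_gain {τ : Finset V → ℤ} (hτ : Submod τ) {ord : V → ℕ}
    (hord : Function.Injective ord) {P R : V → Finset V}
    (hPR : ∀ y, P y ⊆ R y) (hcol : ∀ y Z, P y ⊆ Z → Z ⊆ R y → τ (R y) ≤ τ Z)
    (I : Finset V) (f : V → ℤ)
    (hf : ∀ b ∈ I.biUnion R \ I.biUnion P, ∃ y ∈ I, b ∈ R y ∧ b ∉ P y ∧
      f b ≤ mm τ ord P R y b) :
    ∑ b ∈ I.biUnion R \ I.biUnion P, f b ≤ τ (I.biUnion P) - τ (I.biUnion R) := by
  set Z0 := I.biUnion P with hZ0
  set Zk := I.biUnion R with hZk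
  have hZ : Z0 ⊆ Zk := by
    intro x hx
    rw [hZ0, Finset.mem_biUnion] at hx
    obtain ⟨y, hy, hxy⟩ := hx
    exact Finset.mem_biUnion.2 ⟨y, hy, hPR y hxy⟩
  have hP0 : ∀ y ∈ I, P y ⊆ Z0 := fun y hy x hx => Finset.mem_biUnion.2 ⟨y, hy, hx⟩
  have hRk : ∀ y ∈ I, R y ⊆ Zk := fun y hy x hx => Finset.mem_biUnion.2 ⟨y, hy, hx⟩
  have htel := telescope hord (tt τ Z0) Z0 (Zk \ Z0)
  rw [tt_self, Finset.union_sdiff_of_subset hZ] at htel
  have hk : τ Zk ≤ tt τ Z0 Zk := by
    obtain ⟨S, hS, e⟩ := tt_exists τ Z0 Zk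
    rw [e]
    have := le_add_columns hτ hPR hcol I (Z0 ∪ S)
      (fun y hy => (hP0 y hy).trans Finset.subset_union_left)
    rw [← hZk, Finset.union_eq_right.2 (Finset.union_subset hZ hS)] at this
    exact this
  have hstep : ∀ b ∈ Zk \ Z0, f b ≤
      tt τ Z0 (Z0 ∪ (Zk \ Z0).filter (fun x => ord x < ord b)) -
        tt τ Z0 (Z0 ∪ (Zk \ Z0).filter (fun x => ord x ≤ ord b)) := by
    intro b hb
    obtain ⟨y, hyI, hbR, hbP, hfb⟩ := hf b hb
    have hb0 : b ∉ Z0 := (Finset.mem_sdiff.1 hb).2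
    refine hfb.trans ?_
    unfold mm
    set Zl := Z0 ∪ (Zk \ Z0).filter (fun x => ord x < ord b) with hZl
    set Ze := Z0 ∪ (Zk \ Z0).filter (fun x => ord x ≤ ord b) with hZe
    have hmemle : ∀ x, ord x ≤ ord b ↔ ord x < ord b ∨ x = b := by
      intro x
      constructor
      · intro h
        rcases h.lt_or_eq with h | h
        · exact Or.inl h
        · exact Or.inr (hord h)
      · rintro (h | h)
        · exact h.le
        · rw [h]
    have hZe' : Ze = Zl ∪ (Ze ∩ R y) := by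
      ext x
      simp only [hZl, hZe, Finset.mem_union, Finset.mem_inter, Finset.mem_filter, hmemle]
      constructor
      · rintro (h | ⟨h, h' | h'⟩)
        · exact Or.inl (Or.inl h)
        · exact Or.inl (Or.inr ⟨h, h'⟩)
        · exact Or.inr ⟨Or.inr ⟨h, Or.inr h'⟩, by rw [h']; exact hbR⟩
      · rintro ((h | ⟨h, h'⟩) | ⟨h | ⟨h, h'⟩, _⟩)
        · exact Or.inl h
        · exact Or.inr ⟨h, Or.inl h'⟩
        · exact Or.inl h
        · exact Or.inr ⟨h, h'⟩
    have hZi : Zl ∩ (Ze ∩ R y) = Zl ∩ R y := by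
      ext x
      simp only [hZl, hZe, Finset.mem_union, Finset.mem_inter, Finset.mem_filter, hmemle]
      tauto
    have g1 := tt_submod hτ (U := Ze ∩ R y) (hP0 y hyI) (Finset.subset_union_left :
      Z0 ⊆ Z0 ∪ (Zk \ Z0).filter (fun x => ord x < ord b))
    rw [← hZl, ← hZe', hZi] at g1
    -- the submodularity inside column `y`
    set Sl := P y ∪ (R y \ P y).filter (fun x' => ord x' < ord b) with hSl
    set Se := P y ∪ (R y \ P y).filter (fun x' => ord x' ≤ ord b) with hSe
    have g2 := tt_submod hτ (U := Zl ∩ R y) (Finset.Subset.refl (P y))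
      (Finset.subset_union_left : P y ⊆ P y ∪ (R y \ P y).filter (fun x' => ord x' ≤ ord b))
    rw [← hSe] at g2
    have hyP : ∀ x, x ∈ P y → x ∈ Z0 := fun x hx => hP0 y hyI hx
    have hyR : ∀ x, x ∈ R y → x ∈ Zk := fun x hx => hRk y hyI hx
    have hyPR : ∀ x, x ∈ P y → x ∈ R y := fun x hx => hPR y hx
    have hu : Se ∪ (Zl ∩ R y) = Ze ∩ R y := by
      ext x
      have a1 := hyP x
      have a2 := hyR x
      have a3 := hyPR x
      simp only [hSe, hZl, hZe, Finset.mem_union, Finset.mem_inter, Finset.mem_filter, hmemle,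
        Finset.mem_sdiff]
      constructor
      · rintro ((h | ⟨⟨h, h1⟩, h2⟩) | ⟨h | ⟨h, h'⟩, h2⟩)
        · exact ⟨Or.inl (a1 h), a3 h⟩
        · refine ⟨?_, h⟩
          by_cases h0 : x ∈ Z0
          · exact Or.inl h0
          · exact Or.inr ⟨⟨a2 h, h0⟩, h2⟩
        · exact ⟨Or.inl h, h2⟩
        · exact ⟨Or.inr ⟨h, Or.inl h'⟩, h2⟩
      · rintro ⟨h | ⟨h, h' | h'⟩, h2⟩
        · exact Or.inr ⟨Or.inl h, h2⟩
        · exact Or.inr ⟨Or.inr ⟨h, h'⟩, h2⟩
        · refine Or.inl (Or.inr ⟨⟨h2, ?_⟩, Or.inr h'⟩)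
          rw [h']
          exact hbP
    have hi : Se ∩ (Zl ∩ R y) = Sl := by
      ext x
      have a1 := hyP x
      have a2 := hyR x
      have a3 := hyPR x
      simp only [hSe, hSl, hZl, Finset.mem_union, Finset.mem_inter, Finset.mem_filter, hmemle,
        Finset.mem_sdiff]
      constructor
      · rintro ⟨h | ⟨⟨h, h1⟩, h2 | h2⟩, h3, h4⟩
        · exact Or.inl h
        · exact Or.inr ⟨⟨h, h1⟩, h2⟩
        · exfalso
          rw [h2] at h3
          rcases h3 with h3 | ⟨_, h3⟩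
          · exact hb0 h3
          · exact lt_irrefl _ h3
      · rintro (h | ⟨⟨h, h1⟩, h2⟩)
        · exact ⟨Or.inl h, Or.inl (a1 h), a3 h⟩
        · refine ⟨Or.inr ⟨⟨h, h1⟩, Or.inl h2⟩, ?_, h⟩
          by_cases h0 : x ∈ Z0
          · exact Or.inl h0
          · exact Or.inr ⟨⟨a2 h, h0⟩, h2⟩
    rw [hu, hi] at g2
    linarith
  calc ∑ b ∈ Zk \ Z0, f b ≤ ∑ b ∈ Zk \ Z0,
        (tt τ Z0 (Z0 ∪ (Zk \ Z0).filter (fun x => ord x < ord b)) -
        tt τ Z0 (Z0 ∪ (Zk \ Z0).filter (fun x => ord x ≤ ord b))) := Finset.sum_le_sum hstep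
    _ = τ Z0 - tt τ Z0 Zk := htel
    _ ≤ τ Z0 - τ Zk := by linarith

/-- **The exchange lemma.** The total decrease of `τ` over the source columns is at most the total
decrease over the target columns. -/
theorem star [Fintype V] {τ : Finset V → ℤ} (hτ : Submod τ) (inN P R : V → Finset V)
    (hPR : ∀ y, P y ⊆ R y) (hcol : ∀ y Z, P y ⊆ Z → Z ⊆ R y → τ (R y) ≤ τ Z)
    (β : V → V → V)
    (hβ1 : ∀ x y, x ∈ R y → x ∉ P y → y ∈ inN (β x y))
    (hβ2 : ∀ x y, x ∈ R y → x ∉ P y → ∀ y' ∈ inN (β x y), x ∉ P y')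
    (hβ3 : ∀ x y y', x ∈ R y → x ∉ P y → x ∈ R y' → x ∉ P y' → β x y = β x y' → y = y') :
    ∑ y, (τ (P y) - τ (R y)) ≤
      ∑ z, (τ ((inN z).biUnion P) - τ ((inN z).biUnion R)) := by
  classical
  let ord : V → ℕ := fun x => (Fintype.equivFin V x : ℕ)
  have hord : Function.Injective ord := fun x y h =>
    (Fintype.equivFin V).injective (Fin.ext h)
  let f : V → V → ℤ := fun z b =>
    if h : ∃ y, b ∈ R y ∧ b ∉ P y ∧ β b y = z then mm τ ord P R h.choose b else 0
  have hf0 : ∀ z b, 0 ≤ f z b := by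
    intro z b
    simp only [f]
    split_ifs with h
    · exact mm_nonneg _ _ _ _ _ _
    · exact le_rfl
  have hfeq : ∀ x y, x ∈ R y → x ∉ P y → f (β x y) x = mm τ ord P R y x := by
    intro x y h1 h2
    have h : ∃ y', x ∈ R y' ∧ x ∉ P y' ∧ β x y' = β x y := ⟨y, h1, h2, rfl⟩
    simp only [f]
    rw [dif_pos h]
    have hs := h.choose_spec
    have : h.choose = y := hβ3 x _ y hs.1 hs.2.1 h1 h2 hs.2.2
    rw [this]
  have hgain : ∀ z, ∑ b ∈ (inN z).biUnion R \ (inN z).biUnion P, f z b ≤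
      τ ((inN z).biUnion P) - τ ((inN z).biUnion R) := by
    intro z
    apply column_gain hτ hord hPR hcol (inN z) (f z)
    intro b hb
    by_cases h : ∃ y, b ∈ R y ∧ b ∉ P y ∧ β b y = z
    · have hs := h.choose_spec
      refine ⟨h.choose, ?_, hs.1, hs.2.1, ?_⟩
      · have := hβ1 b h.choose hs.1 hs.2.1
        rwa [hs.2.2] at this
      · simp only [f]
        rw [dif_pos h]
    · rw [Finset.mem_sdiff, Finset.mem_biUnion, Finset.mem_biUnion] at hb
      obtain ⟨⟨y, hy, hyR⟩, hP⟩ := hb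
      refine ⟨y, hy, hyR, fun h' => hP ⟨y, hy, h'⟩, ?_⟩
      simp only [f]
      rw [dif_neg h]
      exact mm_nonneg _ _ _ _ _ _
  calc ∑ y, (τ (P y) - τ (R y)) = ∑ y, ∑ x ∈ R y \ P y, mm τ ord P R y x :=
        Finset.sum_congr rfl (fun y _ => (sum_mm hord hPR hcol y).symm)
    _ = ∑ x, ∑ y ∈ Finset.univ.filter (fun y => x ∈ R y \ P y), mm τ ord P R y x := by
        apply Finset.sum_comm'
        intro y x
        simp
    _ ≤ ∑ x, ∑ z ∈ Finset.univ.filter
          (fun z => x ∈ (inN z).biUnion R \ (inN z).biUnion P), f z x := by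
        apply Finset.sum_le_sum
        intro x _
        have hinj : Set.InjOn (β x) (Finset.univ.filter (fun y => x ∈ R y \ P y) : Finset V) := by
          intro y hy y' hy' h
          simp only [Finset.coe_filter, Finset.mem_univ, true_and, Set.mem_setOf_eq,
            Finset.mem_sdiff] at hy hy'
          exact hβ3 x y y' hy.1 hy.2 hy'.1 hy'.2 h
        calc ∑ y ∈ Finset.univ.filter (fun y => x ∈ R y \ P y), mm τ ord P R y x =
              ∑ y ∈ Finset.univ.filter (fun y => x ∈ R y \ P y), f (β x y) x := by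
              apply Finset.sum_congr rfl
              intro y hy
              simp only [Finset.mem_filter, Finset.mem_univ, true_and, Finset.mem_sdiff] at hy
              exact (hfeq x y hy.1 hy.2).symm
          _ = ∑ z ∈ (Finset.univ.filter (fun y => x ∈ R y \ P y)).image (β x), f z x :=
              (Finset.sum_image (f := fun z => f z x) hinj).symm
          _ ≤ _ := by
              apply Finset.sum_le_sum_of_subset_of_nonneg
              · intro z hz
                simp only [Finset.mem_image, Finset.mem_filter, Finset.mem_univ, true_and,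
                  Finset.mem_sdiff] at hz
                obtain ⟨y, ⟨h1, h2⟩, rfl⟩ := hz
                simp only [Finset.mem_filter, Finset.mem_univ, true_and, Finset.mem_sdiff,
                  Finset.mem_biUnion]
                refine ⟨⟨y, hβ1 x y h1 h2, h1⟩, ?_⟩
                rintro ⟨y', hy', h'⟩
                exact hβ2 x y h1 h2 y' hy' h'
              · intro z _ _
                exact hf0 z x
    _ = ∑ z, ∑ x ∈ (inN z).biUnion R \ (inN z).biUnion P, f z x := by
        apply Finset.sum_comm'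
        intro x z
        simp
    _ ≤ _ := Finset.sum_le_sum (fun z _ => hgain z)

end Vale.Agent.P038.H500
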